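import Crest.Agent.N337.Gas.Loop
import Crest.Agent.N337.A.Box

/-!
# Row 337: the models of block (a) as polymer gases; clustering and the box move in gas form
-/

set_option autoImplicit false
set_option linter.unusedSectionVars false

namespace Crest.Agent.N337.Gas

open Finset Equiv Crest.Agent.N337.Rep Crest.Agent.N337.LY0 Crest.Agent.N337.A
  Crest.Agent.N337.A.Cd

variable {Λ : Type} [Fintype Λ] [DecidableEq Λ] {T : ℕ} [NeZero T] (ex ey : Fin T → Λ)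

/-- the law of the down loops of a model. -/
noncomputable def law (M : Mdl T Λ) : Finset (Lp T Λ) → ℝ := nu (qq ex ey M.p) (ub M.b)

/-- the model left after revealing the family `x` of the loops that meet `U`. -/
def chd (M : Mdl T Λ) (U : Finset (Fin T × Λ)) (x : Finset (Lp T Λ)) : Mdl T Λ where
  p := pin ex ey M.p x
  b := kill M.b (U ∪ pts x)

/-- the down loops of a state. -/
noncomputable def dn (ω : St T Λ Unit) : Finset (Lp T Λ) :=
  (univ.filter fun v => ω.2 v ≠ none).image (lp ex ey ω.1)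

/-- trivial labels. -/
def lab1 : Finset (Fin T × Λ) → Unit → ℝ := fun _ _ => 1

/-- number of time-`0` points. -/
def wd (g : Lp T Λ) : ℕ := (univ.filter fun x : Λ => (0, x) ∈ g.2).card

/-- good families for the box move. -/
def GdG (d : Λ → Λ → ℕ) (M : Mdl T Λ) (K v : ℕ) (A : Finset (Lp T Λ)) : Prop :=
  (∀ g ∈ A, wd g ≤ K) ∧
    Slow ex ey d (fun s => Cheap ex ey d M s ∨ cn A s = true) (fun u => M.b u ≠ 0) v

variable {ex ey} {M : Mdl T Λ} {y : ℝ} {U : Finset (Fin T × Λ)} {x : Finset (Lp T Λ)}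
  {ω η : St T Λ Unit}

lemma lab_lab1 : Lab (lab1 (T := T) (Λ := Λ)) := ⟨fun _ _ => zero_le_one, fun _ => by simp [lab1]⟩

lemma cpt_M (h : M.Ok y) : Cpt (qq ex ey M.p) := cpt_qq h.1

lemma ub_M (h : M.Ok y) (g : Lp T Λ) : 0 ≤ ub M.b g := ub_nn (fun v => (h.2.1 v).1) g

lemma pr_law (h : M.Ok y) : Op.Pr (law ex ey M) := pr_nu (cpt_M h) (ub_M h)

lemma kill_mem {b : Fin T × Λ → ℝ} (h : ∀ v, 0 ≤ b v ∧ b v ≤ 1) (U : Finset (Fin T × Λ))
    (v : Fin T × Λ) : 0 ≤ kill b U v ∧ kill b U v ≤ 1 := by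
  unfold kill; split_ifs; exacts [⟨le_rfl, zero_le_one⟩, h v]

lemma kill_le {b : Fin T × Λ → ℝ} (h : ∀ v, 0 ≤ b v) (U : Finset (Fin T × Λ))
    (v : Fin T × Λ) : kill b U v ≤ b v := by
  unfold kill; split_ifs; exacts [h v, le_rfl]

lemma ok_chd (h : M.Ok y) (U : Finset (Fin T × Λ)) (x : Finset (Lp T Λ)) :
    (chd ex ey M U x).Ok y :=
  ⟨pin_mem h.1 x, kill_mem h.2.1 _, fun z => (kill_le (fun v => (h.2.1 v).1) _ _).trans (h.2.2 z)⟩

lemma gZ_eq_Z (M : Mdl T Λ) : gZ (qq ex ey M.p) (ub M.b) = Z ex ey M := by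
  simp only [gZ_qq, prod_L, ub_lp, Z, lw]

/-- the child gas. -/
theorem nu_chd (h : M.Ok y) (hx : qq ex ey M.p x ≠ 0) (hU : ∀ g ∈ x, Hit U g) :
    nu (sh (qq ex ey M.p) x) (off (Hit U) (ub M.b)) = law ex ey (chd ex ey M U x) := by
  rw [sh_qq hx, law]
  refine nu_congr (cpt_qq (pin_mem h.1 x)) fun g hg => ?_
  simp only [chd, ub_kill, off]
  refine if_congr ⟨fun ⟨v, a, b⟩ => ⟨v, a, mem_union_left _ b⟩, fun ⟨v, a, b⟩ => ?_⟩ rfl rfl
  rcases mem_or_disjoint hx hg with h1 | h1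
  · exact hU g h1
  · exact ⟨v, a, (mem_union.1 b).resolve_right (disjoint_left.1 h1 a)⟩

/-- **the conditional law given the loops that meet `U`.** -/
theorem ex_cond_law (h : M.Ok y) (hx : Op.mass (law ex ey M) (filter (Hit U)) x ≠ 0)
    (F : Finset (Lp T Λ) → ℝ) : Op.ex (Op.cond (law ex ey M) (filter (Hit U)) x) F =
      Op.ex (law ex ey (chd ex ey M U x)) fun A => F (x ∪ A) := by
  obtain ⟨h1, h2, -⟩ := mass_supp (cpt_M h) hx
  rw [law, ex_cond (cpt_M h) (ub_M h) hx, nu_chd h h1 h2]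

lemma var_cond_law (h : M.Ok y) (hx : Op.mass (law ex ey M) (filter (Hit U)) x ≠ 0)
    (F : Finset (Lp T Λ) → ℝ) : Op.var (Op.cond (law ex ey M) (filter (Hit U)) x) F =
      Op.var (law ex ey (chd ex ey M U x)) fun A => F (x ∪ A) := by
  simp only [Op.var, Op.nsq_eq_ex, ex_cond_law h hx]

/-! ### states and families -/

lemma mem_dn {g : Lp T Λ} : g ∈ dn ex ey ω ↔ ∃ v, ω.2 v ≠ none ∧ lp ex ey ω.1 v = g := by
  simp only [dn, mem_image, mem_filter, mem_univ, true_and]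

lemma dn_sub (ω : St T Λ Unit) : dn ex ey ω ⊆ L ex ey ω.1 := fun _ h =>
  let ⟨v, _, e⟩ := mem_dn.1 h; mem_L.2 ⟨v, e⟩

lemma mem_pts_dn (h : Cl ex ey ω.1 ω.2) {v : Fin T × Λ} : v ∈ pts (dn ex ey ω) ↔ ω.2 v ≠ none := by
  rw [mem_pts]
  refine ⟨fun ⟨g, hg, hv⟩ => ?_, fun hv => ⟨_, mem_dn.2 ⟨v, hv, rfl⟩, self_mem_obv _ _⟩⟩
  obtain ⟨w, hw, rfl⟩ := mem_dn.1 hg
  rwa [h.eq_of_o (mem_obv.1 hv)]

lemma tch_dn (h : Cl ex ey ω.1 ω.2) {s : Fin T} :
    tch ex ey (pts (dn ex ey ω)) s ↔ Tch ex ey ω.2 s := by simp only [tch, Tch, mem_pts_dn h]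

lemma sum_wt_dn (M : Mdl T Λ) (F : Finset (Lp T Λ) → ℝ) :
    ∑ ω, wt ex ey M lab1 ω * F (dn ex ey ω) = ∑ A, gw (qq ex ey M.p) (ub M.b) A * F A := by
  classical
  rw [sum_gw, Fintype.sum_prod_type]
  refine sum_congr rfl fun ξ _ => ?_
  have e : ∀ n : Fin T × Λ → Option Unit, wt ex ey M lab1 (ξ, n) * F (dn ex ey (ξ, n)) =
      if ∀ v, n (Sg ex ey ξ v) = n v then
        Pw M.p ξ * ((∏ v, if n v = none then 1 else M.b v) * F (dn ex ey (ξ, n))) else 0 := by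
    intro n
    by_cases h : Cl ex ey ξ n
    · rw [wt_of_cl (ω := (ξ, n)) h, if_pos (show ∀ v, n (Sg ex ey ξ v) = n v from h), dw,
        prod_eq_one (s := (univ : Finset (Orb _))) fun g _ => by
          cases (ξ, n).2 (bp g) <;> rfl]
      ring
    · rw [if_neg (show ¬ ∀ v, n (Sg ex ey ξ v) = n v from h), wt, if_neg h, zero_mul]
  simp only [e]
  rw [sum_inv (Sg ex ey ξ) fun n => Pw M.p ξ *
    ((∏ v, if n v = none then 1 else M.b v) * F (dn ex ey (ξ, n))), ← mul_sum]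
  congr 1
  have hd : ∀ c : Orb (Sg ex ey ξ) → Option Unit, dn ex ey (ξ, c ∘ o (Sg ex ey ξ)) =
      (univ.filter fun g => c g ≠ none).image fun g => lp ex ey ξ (bp g) := fun c => by
    ext g
    simp only [mem_dn, mem_image, mem_filter, mem_univ, true_and, Function.comp]
    exact ⟨fun ⟨v, a, b⟩ => ⟨o _ v, a, (lp_eq_iff.2 (o_bp _)).trans b⟩,
      fun ⟨c, a, b⟩ => ⟨bp c, by rwa [o_bp], b⟩⟩
  refine sum_bij (fun c _ => dn ex ey (ξ, c ∘ o (Sg ex ey ξ))) (fun c _ => mem_powerset.2 (dn_sub _))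
    (fun c _ c' _ h => ?_) (fun A hA => ?_) fun c _ => ?_
  · rw [hd, hd] at h
    have h' := image_injective (fun _ _ => lp_bp_inj) h
    funext g
    have := (Finset.ext_iff.1 h') g
    simp only [mem_filter, mem_univ, true_and] at this
    revert this; cases c g <;> cases c' g <;> simp
  · refine ⟨fun g => if lp ex ey ξ (bp g) ∈ A then some () else none, mem_univ _, ?_⟩
    rw [hd]; ext g
    simp only [mem_image, mem_filter, mem_univ, true_and, ne_eq, ite_eq_right_iff, reduceCtorEq,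
      imp_false, not_not]
    refine ⟨fun ⟨c, a, b⟩ => b ▸ a, fun hg => ?_⟩
    have := mem_powerset.1 hA hg
    rw [L_eq_image, mem_image] at this
    obtain ⟨c, -, rfl⟩ := this
    exact ⟨c, hg, rfl⟩
  · congr 1
    rw [hd, prod_image fun _ _ _ _ => lp_bp_inj, prod_filter, ← prod_pr (Sg ex ey ξ)]
    refine prod_congr rfl fun g _ => ?_
    by_cases h : c g = none
    · rw [if_neg (not_not.2 h)]; exact pr_one fun v hv => if_pos (by simp [hv, h])
    · rw [if_pos h, ub_lp]; exact pr_congr fun v hv => if_neg (by simp [hv, h])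

/-- **expectations of functions of the down loops.** -/
theorem Ev_dn (M : Mdl T Λ) (F : Finset (Lp T Λ) → ℝ) :
    Ev ex ey M lab1 (fun ω => F (dn ex ey ω)) = Op.ex (law ex ey M) F := by
  rw [Ev, sum_wt_dn, law, ex_nu, gZ_eq_Z]

lemma lp_eq_of_coin (hη : Cl ex ey η.1 η.2) {ξ : Fin T → Bool}
    (hc : ∀ s, Tch ex ey η.2 s → ξ s = η.1 s) {v : Fin T × Λ} (hv : η.2 v ≠ none) :
    lp ex ey ξ v = lp ex ey η.1 v :=
  lp_congr fun s hs => hc s (hs.imp (fun h => by rwa [hη.eq_of_o (mem_obv.1 h)])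
    fun h => by rwa [hη.eq_of_o (mem_obv.1 h)])

lemma dn_res (h : Cl ex ey ω.1 ω.2) (U : Finset (Fin T × Λ)) :
    dn ex ey (res ex ey U ω) = (dn ex ey ω).filter (Hit U) := by
  have e : ∀ v, rn ex ey U ω v ≠ none → lp ex ey (res ex ey U ω).1 v = lp ex ey ω.1 v := by
    intro v hv
    have hc : ∀ s, Tch ex ey (res ex ey U ω).2 s → ω.1 s = (res ex ey U ω).1 s :=
      fun s hs => (res_fst_of_tch hs).symm
    exact (lp_eq_of_coin (h.rev U).cl hc hv).symm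
  ext g
  simp only [mem_dn, mem_filter, Cd.res_snd]
  constructor
  · rintro ⟨v, hv, rfl⟩
    obtain ⟨⟨u, hu, a⟩, b⟩ := rn_of_ne hv
    rw [e v hv]
    exact ⟨⟨v, b ▸ hv, rfl⟩, u, mem_obv.2 a, hu⟩
  · rintro ⟨⟨v, hv, rfl⟩, u, a, hu⟩
    have : rn ex ey U ω v ≠ none := by unfold rn; rwa [if_pos ⟨u, hu, mem_obv.1 a⟩]
    exact ⟨v, this, e v this⟩

lemma child_eq (hη : Cl ex ey η.1 η.2) (M : Mdl T Λ) (U : Finset (Fin T × Λ)) :
    child ex ey M U η = chd ex ey M U (dn ex ey η) := by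
  unfold child chd
  congr 1
  · funext s
    simp only [pin, cn_eq (dn_sub η), tch_dn hη]
    split_ifs <;> rfl
  · funext v
    simp only [kill, mem_union, mem_pts_dn hη]

lemma dn_glue (hf : Fit ex ey U η ω) (hη : Cl ex ey η.1 η.2) :
    dn ex ey (glue η ω) = dn ex ey η ∪ dn ex ey ω := by
  ext g
  simp only [mem_dn, mem_union, glue_ne_none, glue_fst]
  constructor
  · rintro ⟨v, hv | hv, rfl⟩
    · exact Or.inl ⟨v, hv, (lp_eq_of_coin hη hf.coin hv).symm⟩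
    · exact Or.inr ⟨v, hv, rfl⟩
  · rintro (⟨v, hv, rfl⟩ | ⟨v, hv, rfl⟩)
    · exact ⟨v, Or.inl hv, lp_eq_of_coin hη hf.coin hv⟩
    · exact ⟨v, Or.inr hv, rfl⟩

lemma law_dn_ne (h : M.Ok y) (hw : wt ex ey M lab1 ω ≠ 0) : law ex ey M (dn ex ey ω) ≠ 0 := by
  classical
  have h0 : ∀ ω, 0 ≤ wt ex ey M lab1 ω := ((bas Λ T ex ey M y h).2.2.2.2 Unit lab1 lab_lab1).1
  have h1 := sum_wt_dn (ex := ex) (ey := ey) M fun A => if A = dn ex ey ω then 1 else 0
  have h2 := single_le_sum (f := fun ω' => wt ex ey M lab1 ω' *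
    if dn ex ey ω' = dn ex ey ω then 1 else 0)
    (fun ω' _ => mul_nonneg (h0 ω') (by split_ifs <;> norm_num)) (mem_univ ω)
  rw [h1] at h2
  simp only [mul_ite, mul_one, mul_zero, if_true, sum_ite_eq', mem_univ] at h2
  exact div_ne_zero (((h0 ω).lt_of_ne' hw).trans_le h2).ne' (gZ_pos (cpt_M h) (ub_M h)).ne'

/-- `Pk` is the conditional expectation of the gas. -/
lemma Pk_dn (h : M.Ok y) (U : Finset (Fin T × Λ)) {G : St T Λ Unit → ℝ} {F : Finset (Lp T Λ) → ℝ}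
    (hG : ∀ ω, wt ex ey M lab1 ω ≠ 0 → G ω = F (dn ex ey ω)) (ω : St T Λ Unit)
    (hw : wt ex ey M lab1 ω ≠ 0) : A.Pk ex ey M lab1 U G ω =
      Op.ap (Op.ce (law ex ey M) (filter (Hit U))) F (dn ex ey ω) := by
  have hc := cl_of_wt hw
  have h1 := law_dn_ne h hw
  rw [Op.ap_ce_ae (pr_law h).nn _ h1, ex_cond_law h (Op.mass_ne (pr_law h).nn h1), ← Ev_dn, A.Pk,
    ← dn_res hc, ← child_eq (hc.rev U).cl]
  exact Ev_congr fun ω' hw' => by
    rw [hG _ (wt_glue_ne hw hw'), dn_glue (fit_of_wt hw') (hc.rev U).cl]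

lemma gd_dn (h : Cl ex ey ω.1 ω.2) (d : Λ → Λ → ℕ) (M : Mdl T Λ) (K v : ℕ) :
    Gd ex ey d M K v ω ↔ GdG ex ey d M K v (dn ex ey ω) := by
  have e : ∀ u, wd (lp ex ey ω.1 u) = wind ex ey ω.1 u := fun u => by
    simp only [wd, wind, lp_snd, mem_obv]
  refine and_congr ⟨fun H g hg => ?_, fun H u hu => e u ▸ H _ (mem_dn.2 ⟨u, hu, rfl⟩)⟩ ?_
  · obtain ⟨u, hu, rfl⟩ := mem_dn.1 hg
    exact e u ▸ H u hu
  · have : ActW ex ey d M ω = fun s => Cheap ex ey d M s ∨ cn (dn ex ey ω) s = true := by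
      funext s
      simp only [ActW, cn_eq (dn_sub ω), tch_dn h]
      split_ifs with hs <;> simp [hs]
    rw [this]

/-- **clustering in gas form** (transfer of any bound in the form of `ClusStmt`). -/
theorem clus_tr {M M' : Mdl T Λ} {U : Finset (Fin T × Λ)} {e : ℝ}
    (H : ∀ φ : St T Λ Unit → ℝ, (∀ η, |φ η| ≤ 1) →
      |Ev ex ey M lab1 (fun ω => φ (res ex ey U ω)) -
        Ev ex ey M' lab1 (fun ω => φ (res ex ey U ω))| ≤ e)
    (φ : Finset (Lp T Λ) → ℝ) (hφ : ∀ A, |φ A| ≤ 1) :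
    |Op.ex (law ex ey M) (fun A => φ (A.filter (Hit U))) -
      Op.ex (law ex ey M') fun A => φ (A.filter (Hit U))| ≤ e := by
  have := H (fun η => φ (dn ex ey η)) fun _ => hφ _
  rwa [Ev_congr (M := M) fun ω hw => by rw [dn_res (cl_of_wt hw)],
    Ev_congr (M := M') fun ω hw => by rw [dn_res (cl_of_wt hw)],
    Ev_dn M fun A => φ (A.filter (Hit U)), Ev_dn M' fun A => φ (A.filter (Hit U))] at this

lemma Pb_le_dn (h : M.Ok y) {E : St T Λ Unit → Prop} {S : Finset (Lp T Λ) → Prop} [DecidablePred S]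
    (hS : ∀ ω, wt ex ey M lab1 ω ≠ 0 → E ω → S (dn ex ey ω)) :
    Pb ex ey M lab1 E ≤ Op.ex (law ex ey M) (Op.ind S) := by
  rw [← Ev_dn, Pb]
  refine Ev_mono bas h lab_lab1 fun ω hw => ?_
  unfold Op.ind
  split_ifs with a b b
  exacts [le_rfl, absurd (hS ω hw a) b, zero_le_one, le_rfl]

lemma dn_le_Pb (h : M.Ok y) {E : St T Λ Unit → Prop} {S : Finset (Lp T Λ) → Prop} [DecidablePred S]
    (hS : ∀ ω, wt ex ey M lab1 ω ≠ 0 → S (dn ex ey ω) → E ω) :
    Op.ex (law ex ey M) (Op.ind S) ≤ Pb ex ey M lab1 E := by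
  rw [← Ev_dn, Pb]
  refine Ev_mono bas h lab_lab1 fun ω hw => ?_
  unfold Op.ind
  split_ifs with a b b
  exacts [le_rfl, absurd (hS ω hw a) b, zero_le_one, le_rfl]

lemma res_univ_idem (ω : St T Λ Unit) : res ex ey univ (res ex ey univ ω) = res ex ey univ ω := by
  have e : ∀ ω : St T Λ Unit, res ex ey univ ω =
      (fun s => if Tch ex ey ω.2 s then ω.1 s else false, ω.2) := fun ω => by
    unfold res; rw [rn_univ]
  rw [e, e ω]
  refine Prod.ext (funext fun s => ?_) rfl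
  dsimp only
  split_ifs <;> rfl

lemma dn_res_univ (h : Cl ex ey ω.1 ω.2) : dn ex ey (res ex ey univ ω) = dn ex ey ω := by
  rw [dn_res h, filter_true_of_mem]
  intro g hg
  obtain ⟨v, -, rfl⟩ := mem_dn.1 hg
  exact ⟨v, self_mem_obv _ _, mem_univ _⟩

lemma nsq_ps_le {Ω : Type} [Fintype Ω] [DecidableEq Ω] {μ : Ω → ℝ} (hμ : Op.Pr μ) {S : Ω → Prop}
    [DecidablePred S] (hS : Op.ex μ (Op.ind S) < 1) {f : Ω → ℝ} (hf : Op.ex μ f = 0) :
    Op.nsq μ (Op.ap (Op.ps S μ) f) ≤ Op.ex μ fun ω => if S ω then 0 else f ω ^ 2 := by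
  set c := Op.exc S μ f
  have h1 := hμ.ex_ps_aux hS f
  have e : (fun ω => if S ω then 0 else f ω ^ 2) = fun ω => Op.ap (Op.ps S μ) f ω ^ 2 +
      (2 * c * ((1 - Op.ind S ω) * (f ω - c)) + c ^ 2 * (1 - Op.ind S ω)) := by
    funext ω; rw [Op.ap_ps, hf]; unfold Op.ind; split_ifs <;> ring
  rw [e, Op.ex_add, Op.ex_add, Op.ex_mul, Op.ex_mul, h1, hμ.ex_compl, ← Op.nsq_eq_ex]
  nlinarith [sq_nonneg c]

open Classical in
/-- **the box move in gas form** (transfer of any bound in the form of `BoxStmt`). -/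
theorem box_tr {d : Λ → Λ → ℕ} {U : Fin 4 → Finset (Fin T × Λ)} {δ : ℝ} {m v : ℕ} (h : M.Ok y)
    (hδ : 0 ≤ δ) (H : ∀ F : St T Λ Unit → ℝ, (∀ ω, F (res ex ey univ ω) = F ω) →
      Ev ex ey M lab1 (fun ω => if Gd ex ey d M m v ω then
        (A.Pk ex ey M lab1 (U 0) (A.Pk ex ey M lab1 (U 1)
          (A.Pk ex ey M lab1 (U 2) (A.Pk ex ey M lab1 (U 3) F))) ω -
            Ev ex ey M lab1 F) ^ 2 else 0) ≤
        400 * (δ + Pb ex ey M lab1 fun ω => ¬ Gd ex ey d M m v ω) *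
          Ev ex ey M lab1 fun ω => F ω ^ 2)
    (S : Finset (Lp T Λ) → Prop) (hS : ∀ A, law ex ey M A ≠ 0 → ¬S A → GdG ex ey d M m v A)
    (he : δ + Op.ex (law ex ey M) (Op.ind S) ≤ 1 / 1600) :
    Op.Con (law ex ey M) (Op.word [Op.ps S (law ex ey M),
      Op.ce (law ex ey M) (filter (Hit (U 0))), Op.ce (law ex ey M) (filter (Hit (U 1))),
      Op.ce (law ex ey M) (filter (Hit (U 2))), Op.ce (law ex ey M) (filter (Hit (U 3)))])
      (1 / 2) := by
  intro F hF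
  have hp := pr_law (ex := ex) (ey := ey) h
  have k := fun U : Finset (Fin T × Λ) => (Op.proj_ce hp.nn (filter (Hit U))).ker
  simp only [Op.word, Op.ap_comp, Op.ap_idk]
  refine (nsq_ps_le hp (by linarith) (by simp only [(k _).ex_ap, hF])).trans ?_
  have hb := H (fun ω => F (dn ex ey (res ex ey univ ω))) fun ω => by rw [res_univ_idem]
  have h0 : ∀ ω, wt ex ey M lab1 ω ≠ 0 → F (dn ex ey (res ex ey univ ω)) = F (dn ex ey ω) :=
    fun ω hw => by rw [dn_res_univ (cl_of_wt hw)]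
  have h4 := Pk_dn h (U 0) (Pk_dn h (U 1) (Pk_dn h (U 2) (Pk_dn h (U 3) h0)))
  rw [Ev_congr h0, Ev_dn, hF, Ev_congr (F := fun ω => F (dn ex ey (res ex ey univ ω)) ^ 2)
    (G := fun ω => F (dn ex ey ω) ^ 2) fun ω hw => by rw [h0 ω hw], Ev_dn M fun A => F A ^ 2,
    ← Op.nsq_eq_ex] at hb
  have h5 : Pb ex ey M lab1 (fun ω => ¬ Gd ex ey d M m v ω) ≤ Op.ex (law ex ey M) (Op.ind S) :=
    Pb_le_dn h fun ω hw hn => by
      by_contra h6
      exact hn ((gd_dn (cl_of_wt hw) d M m v).2 (hS _ (law_dn_ne h hw) h6))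
  have h6 := Op.nsq_nn hp.nn F
  refine le_trans ?_ (hb.trans (by nlinarith))
  rw [← Ev_dn]
  refine Ev_mono bas h lab_lab1 fun ω hw => ?_
  rw [h4 ω hw, sub_zero]
  split_ifs with a b b
  exacts [sq_nonneg _, le_rfl, le_rfl,
    absurd ((gd_dn (cl_of_wt hw) d M m v).2 (hS _ (law_dn_ne h hw) a)) b]

open Classical in
/-- long or fast families are rare. -/
theorem gdg_rare {d : Λ → Λ → ℕ} {m v : ℕ} {e1 e2 : ℝ} (h : M.Ok y)
    (h1 : Pb ex ey M lab1 (fun ω => ∃ u, ω.2 u ≠ none ∧ m < wind ex ey ω.1 u) ≤ e1)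
    (h2 : Pb ex ey M lab1 (fun ω => ¬ Slow ex ey d (Act ex ey d ω.1) (fun u => M.b u ≠ 0) v) ≤ e2) :
    Op.ex (law ex ey M) (Op.ind fun A => ¬GdG ex ey d M m v A) ≤ e1 + e2 := by
  refine (dn_le_Pb (E := fun ω => ¬ Gd ex ey d M m v ω) h fun ω hw a b =>
    a ((gd_dn (cl_of_wt hw) d M m v).1 b)).trans
    ((Pb_le_add bas h lab_lab1 fun ω hw a => ?_).trans (add_le_add h1 h2))
  by_contra h9
  push Not at h9
  refine a ⟨h9.1, h9.2.mono' le_rfl (fun _ h => h) fun s _ _ _ hc => ?_⟩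
  rcases hc with (hc | hc) | hc
  · left
    have := wb_ne_of_wt hw s
    rw [hc] at this
    by_contra h7
    rw [Bool.not_eq_true] at h7
    rw [h7] at this
    exact this (by simp [wb])
  · exact Or.inr hc
  · exact Or.inl hc.1

end Crest.Agent.N337.Gas
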