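import Crest.Agent.N337.Gas.Lab
import Crest.Agent.N337.A.Cond

/-!
# Row 337: the loops of the space-time permutation as polymers

`Lp` = (coins at the steps that touch the loop, points of the loop); `L ξ` = loops of `Sg ex ey ξ`;
`qq p A = P_p(A ⊆ L ξ)`; `pin p A` = coins touching `A` pinned.
-/

set_option autoImplicit false
set_option linter.unusedSectionVars false

namespace Crest.Agent.N337.Gas

open Finset Equiv Crest.Agent.N337.Rep Crest.Agent.N337.LY0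

/-- polymers. -/
abbrev Lp (T : ℕ) (Λ : Type) : Type := (Fin T → Bool) × Finset (Fin T × Λ)

variable {Λ : Type} [Fintype Λ] [DecidableEq Λ] {T : ℕ} [NeZero T] (ex ey : Fin T → Λ)

/-- step `s` touches the point set `S`. -/
def tch (S : Finset (Fin T × Λ)) (s : Fin T) : Prop := (s, ex s) ∈ S ∨ (s, ey s) ∈ S

instance (S : Finset (Fin T × Λ)) (s : Fin T) : Decidable (tch ex ey S s) := by
  unfold tch; infer_instance

/-- the points of the loop through `v`. -/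
noncomputable def obv (ξ : Fin T → Bool) (v : Fin T × Λ) : Finset (Fin T × Λ) :=
  ob (Sg ex ey ξ) (o (Sg ex ey ξ) v)

/-- the loop through `v`. -/
noncomputable def lp (ξ : Fin T → Bool) (v : Fin T × Λ) : Lp T Λ :=
  (fun s => if tch ex ey (obv ex ey ξ v) s then ξ s else false, obv ex ey ξ v)

/-- the loops of `ξ`. -/
noncomputable def L (ξ : Fin T → Bool) : Finset (Lp T Λ) := univ.image (lp ex ey ξ)

/-- probability that all polymers of `A` are loops. -/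
noncomputable def qq (p : Fin T → ℝ) (A : Finset (Lp T Λ)) : ℝ :=
  ∑ ξ, Pw p ξ * if A ⊆ L ex ey ξ then 1 else 0

/-- the points of a family. -/
def pts (A : Finset (Lp T Λ)) : Finset (Fin T × Λ) := A.biUnion Prod.snd

/-- the coins of a family. -/
def cn (A : Finset (Lp T Λ)) (s : Fin T) : Bool := decide (∃ g ∈ A, g.1 s = true)

/-- the coins touching `A` are pinned. -/
def pin (p : Fin T → ℝ) (A : Finset (Lp T Λ)) (s : Fin T) : ℝ :=
  if tch ex ey (pts A) s then (if cn A s = true then 1 else 0) else p s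

/-- product weights. -/
def ub (b : Fin T × Λ → ℝ) (g : Lp T Λ) : ℝ := ∏ v ∈ g.2, b v

variable {ex ey} {ξ ξ' : Fin T → Bool} {u v : Fin T × Λ} {g g' : Lp T Λ} {A : Finset (Lp T Λ)}
  {p : Fin T → ℝ}

lemma mem_obv : u ∈ obv ex ey ξ v ↔ o (Sg ex ey ξ) u = o (Sg ex ey ξ) v := by simp [obv]

lemma self_mem_obv (ξ : Fin T → Bool) (v : Fin T × Λ) : v ∈ obv ex ey ξ v := mem_obv.2 rfl

lemma lp_snd (ξ : Fin T → Bool) (v : Fin T × Λ) : (lp ex ey ξ v).2 = obv ex ey ξ v := rfl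

lemma lp_eq_iff : lp ex ey ξ u = lp ex ey ξ v ↔ o (Sg ex ey ξ) u = o (Sg ex ey ξ) v :=
  ⟨fun h => mem_obv.1 (by rw [← lp_snd, ← h]; exact self_mem_obv ξ u),
    fun h => by unfold lp obv; rw [h]⟩

lemma mem_L : g ∈ L ex ey ξ ↔ ∃ v, lp ex ey ξ v = g := by simp [L]

lemma lp_mem_L (ξ : Fin T → Bool) (v : Fin T × Λ) : lp ex ey ξ v ∈ L ex ey ξ := mem_L.2 ⟨v, rfl⟩

lemma eq_lp (hg : g ∈ L ex ey ξ) (hv : v ∈ g.2) : g = lp ex ey ξ v := by
  obtain ⟨w, rfl⟩ := mem_L.1 hg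
  exact (lp_eq_iff.2 (mem_obv.1 hv)).symm

lemma L_nonempty (hg : g ∈ L ex ey ξ) : g.2.Nonempty := by
  obtain ⟨w, rfl⟩ := mem_L.1 hg
  exact ⟨w, self_mem_obv ξ w⟩

/-- two loops of the same coins with a common point are equal. -/
lemma L_eq (hg : g ∈ L ex ey ξ) (hg' : g' ∈ L ex ey ξ) (hv : v ∈ g.2) (hv' : v ∈ g'.2) : g = g' :=
  (eq_lp hg hv).trans (eq_lp hg' hv').symm

lemma L_fst (hg : g ∈ L ex ey ξ) (s : Fin T) : g.1 s = if tch ex ey g.2 s then ξ s else false := by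
  obtain ⟨w, rfl⟩ := mem_L.1 hg; rfl

lemma obv_congr (h : ∀ s, tch ex ey (obv ex ey ξ v) s → ξ' s = ξ s) :
    obv ex ey ξ' v = obv ex ey ξ v := by
  have hm : ∀ w, (if w ∈ obv ex ey ξ v then some () else none) ≠ none ↔ w ∈ obv ex ey ξ v :=
    fun w => by split_ifs with hw <;> simp [hw]
  refine A.Cd.ob_eq_of_tch (m := fun w => if w ∈ obv ex ey ξ v then some () else none)
    (fun w => by simp only [mem_obv, o_apply]) (fun s hs => h s ?_) ((hm v).2 (self_mem_obv ξ v))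
  exact hs.imp (hm _).1 (hm _).1

lemma lp_congr (h : ∀ s, tch ex ey (obv ex ey ξ v) s → ξ' s = ξ s) :
    lp ex ey ξ' v = lp ex ey ξ v := by
  rw [lp, lp, obv_congr h]
  congr 1; funext s
  split_ifs with hs; exacts [h s hs, rfl]

/-- a loop is present iff the coins that touch it have the right values. -/
lemma mem_L_iff (hg : g ∈ L ex ey ξ) : g ∈ L ex ey ξ' ↔ ∀ s, tch ex ey g.2 s → ξ' s = ξ s := by
  refine ⟨fun h s hs => ?_, fun h => ?_⟩
  · have := (L_fst h s).symm.trans (L_fst hg s)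
    rwa [if_pos hs, if_pos hs] at this
  · obtain ⟨w, rfl⟩ := mem_L.1 hg
    exact mem_L.2 ⟨w, lp_congr h⟩

lemma mem_pts : v ∈ pts A ↔ ∃ g ∈ A, v ∈ g.2 := mem_biUnion

lemma pts_union (A B : Finset (Lp T Λ)) : pts (A ∪ B) = pts A ∪ pts B := union_biUnion

lemma pts_mono {B : Finset (Lp T Λ)} (h : A ⊆ B) : pts A ⊆ pts B :=
  biUnion_subset_biUnion_of_subset_left _ h

lemma tch_pts {s : Fin T} : tch ex ey (pts A) s ↔ ∃ g ∈ A, tch ex ey g.2 s := by
  simp only [tch, mem_pts, and_or_left, exists_or]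

lemma sub_L_iff (hA : A ⊆ L ex ey ξ) :
    A ⊆ L ex ey ξ' ↔ ∀ s, tch ex ey (pts A) s → ξ' s = ξ s := by
  refine ⟨fun h s hs => ?_, fun h g hg => (mem_L_iff (hA hg)).2 fun s hs => h s ?_⟩
  · obtain ⟨g, hg, hs⟩ := tch_pts.1 hs
    exact (mem_L_iff (hA hg)).1 (h hg) s hs
  · exact tch_pts.2 ⟨g, hg, hs⟩

lemma cn_eq (hA : A ⊆ L ex ey ξ) (s : Fin T) :
    cn A s = if tch ex ey (pts A) s then ξ s else false := by
  have : cn A s = true ↔ tch ex ey (pts A) s ∧ ξ s = true := by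
    simp only [cn, decide_eq_true_eq, tch_pts]
    constructor
    · rintro ⟨g, hg, h⟩
      rw [L_fst (hA hg)] at h
      split_ifs at h with h1
      exact ⟨⟨g, hg, h1⟩, h⟩
    · rintro ⟨⟨g, hg, h1⟩, h⟩
      exact ⟨g, hg, by rw [L_fst (hA hg), if_pos h1, h]⟩
  split_ifs with h
  · exact Bool.eq_iff_iff.2 (by simp [this, h])
  · exact Bool.eq_false_iff.2 fun h' => h (this.1 h').1

lemma pin_mem (hp : ∀ s, 0 ≤ p s ∧ p s ≤ 1) (A : Finset (Lp T Λ)) (s : Fin T) :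
    0 ≤ pin ex ey p A s ∧ pin ex ey p A s ≤ 1 := by
  unfold pin; split_ifs
  exacts [⟨zero_le_one, le_rfl⟩, ⟨le_rfl, zero_le_one⟩, hp s]

@[simp] lemma pin_empty (p : Fin T → ℝ) : pin ex ey p ∅ = p := by
  funext s; simp [pin, pts, tch]

lemma Pw_mul_ind (hA : A ⊆ L ex ey ξ) (ξ' : Fin T → Bool) :
    (Pw p ξ' * if A ⊆ L ex ey ξ' then 1 else 0) =
      (∏ s, if tch ex ey (pts A) s then wb (p s) (ξ s) else 1) * Pw (pin ex ey p A) ξ' := by
  simp only [Pw, ← prod_mul_distrib, sub_L_iff hA]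
  split_ifs with h
  · rw [mul_one]
    refine prod_congr rfl fun s _ => ?_
    by_cases hs : tch ex ey (pts A) s
    · simp only [pin, cn_eq hA, hs, if_true, h s hs]; cases ξ s <;> simp [wb]
    · simp [pin, hs]
  · push Not at h
    obtain ⟨s, hs, h⟩ := h
    rw [mul_zero, prod_eq_zero (mem_univ s)]
    simp only [pin, cn_eq hA, hs, if_true]
    revert h; cases ξ s <;> cases ξ' s <;> simp [wb]

lemma qq_eq (hA : A ⊆ L ex ey ξ) :
    qq ex ey p A = ∏ s, if tch ex ey (pts A) s then wb (p s) (ξ s) else 1 := by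
  simp only [qq, Pw_mul_ind hA, ← mul_sum, sum_Pw, mul_one]

lemma qq_supp (h : qq ex ey p A ≠ 0) : ∃ ξ, Pw p ξ ≠ 0 ∧ A ⊆ L ex ey ξ := by
  obtain ⟨ξ, -, hξ⟩ := exists_ne_zero_of_sum_ne_zero h
  refine ⟨ξ, left_ne_zero_of_mul hξ, ?_⟩
  by_contra h'; simp [h'] at hξ

/-- the law of the coins given that `A` is present. -/
lemma Pw_cond (h : qq ex ey p A ≠ 0) (ξ' : Fin T → Bool) :
    (Pw p ξ' * if A ⊆ L ex ey ξ' then 1 else 0) = qq ex ey p A * Pw (pin ex ey p A) ξ' := by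
  obtain ⟨ξ, -, hA⟩ := qq_supp h
  rw [Pw_mul_ind hA, qq_eq hA]

lemma sub_L_of_pin (h : qq ex ey p A ≠ 0) (h' : Pw (pin ex ey p A) ξ' ≠ 0) :
    Pw p ξ' ≠ 0 ∧ A ⊆ L ex ey ξ' := by
  have := mul_ne_zero h h'
  rw [← Pw_cond h] at this
  refine ⟨left_ne_zero_of_mul this, ?_⟩
  by_contra h'; simp [h'] at this

lemma cpt_qq (hp : ∀ s, 0 ≤ p s ∧ p s ≤ 1) : Cpt (qq ex ey p) where
  nn A := sum_nonneg fun ξ _ => mul_nonneg (Pw_nonneg hp ξ) (by split_ifs <;> norm_num)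
  empty := by simp [qq, sum_Pw]
  anti A B h := sum_le_sum fun ξ _ => mul_le_mul_of_nonneg_left (by
    by_cases hB : B ⊆ L ex ey ξ
    · rw [if_pos hB, if_pos (h.trans hB)]
    · rw [if_neg hB]; split_ifs <;> norm_num) (Pw_nonneg hp ξ)

/-- **conditioning is pinning.** -/
theorem sh_qq (h : qq ex ey p A ≠ 0) : sh (qq ex ey p) A = qq ex ey (pin ex ey p A) := by
  funext B
  rw [sh, div_eq_iff h, qq, qq, sum_mul]
  refine sum_congr rfl fun ξ _ => ?_
  rw [mul_right_comm, mul_comm (Pw (pin ex ey p A) ξ), ← Pw_cond h]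
  simp only [union_subset_iff]
  by_cases a : A ⊆ L ex ey ξ <;> by_cases b : B ⊆ L ex ey ξ <;> simp [a, b]

/-- in the pinned model a possible polymer belongs to `A` or avoids it. -/
lemma mem_or_disjoint (h : qq ex ey p A ≠ 0) (hg : qq ex ey (pin ex ey p A) {g} ≠ 0) :
    g ∈ A ∨ Disjoint g.2 (pts A) := by
  obtain ⟨ξ, h1, h2⟩ := qq_supp hg
  have hA := (sub_L_of_pin h h1).2
  rw [or_iff_not_imp_left, disjoint_left]
  intro hn v hv hv'
  obtain ⟨g', hg', hv'⟩ := mem_pts.1 hv'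
  exact hn (L_eq (h2 (mem_singleton_self g)) (hA hg') hv hv' ▸ hg')

lemma qq_nonempty (h : qq ex ey p A ≠ 0) (hg : g ∈ A) : g.2.Nonempty := by
  obtain ⟨ξ, -, h2⟩ := qq_supp h
  exact L_nonempty (h2 hg)

/-- sums over the gas as sums over the coins. -/
theorem sum_gw (p : Fin T → ℝ) (w : Lp T Λ → ℝ) (F : Finset (Lp T Λ) → ℝ) :
    ∑ A, gw (qq ex ey p) w A * F A =
      ∑ ξ, Pw p ξ * ∑ A ∈ (L ex ey ξ).powerset, (∏ g ∈ A, w g) * F A := by
  simp only [gw, qq, sum_mul, mul_sum]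
  rw [sum_comm]
  refine sum_congr rfl fun ξ _ => ?_
  rw [← sum_subset (subset_univ (L ex ey ξ).powerset) fun A _ h => by
    rw [mem_powerset] at h; simp [h]]
  exact sum_congr rfl fun A h => by rw [if_pos (mem_powerset.1 h)]; ring

lemma gZ_qq (p : Fin T → ℝ) (w : Lp T Λ → ℝ) :
    gZ (qq ex ey p) w = ∑ ξ, Pw p ξ * ∏ g ∈ L ex ey ξ, (1 + w g) := by
  have := sum_gw (ex := ex) (ey := ey) p w fun _ => 1
  simp only [mul_one] at this
  simp only [gZ, this, prod_one_add]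

lemma L_eq_image (ξ : Fin T → Bool) :
    L ex ey ξ = univ.image fun c : Orb (Sg ex ey ξ) => lp ex ey ξ (bp c) := by
  ext g
  simp only [mem_L, mem_image, mem_univ, true_and]
  exact ⟨fun ⟨v, h⟩ => ⟨o _ v, (lp_eq_iff.2 (o_bp _)).trans h⟩, fun ⟨c, h⟩ => ⟨_, h⟩⟩

lemma lp_bp_inj {c c' : Orb (Sg ex ey ξ)} (h : lp ex ey ξ (bp c) = lp ex ey ξ (bp c')) : c = c' := by
  rwa [lp_eq_iff, o_bp, o_bp] at h

lemma prod_L (ξ : Fin T → Bool) (f : Lp T Λ → ℝ) :
    ∏ g ∈ L ex ey ξ, f g = ∏ c : Orb (Sg ex ey ξ), f (lp ex ey ξ (bp c)) := by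
  rw [L_eq_image, prod_image fun _ _ _ _ => lp_bp_inj]

lemma sum_L (ξ : Fin T → Bool) (f : Lp T Λ → ℝ) :
    ∑ g ∈ L ex ey ξ, f g = ∑ c : Orb (Sg ex ey ξ), f (lp ex ey ξ (bp c)) := by
  rw [L_eq_image, sum_image fun _ _ _ _ => lp_bp_inj]

lemma lp_bp_snd (c : Orb (Sg ex ey ξ)) : (lp ex ey ξ (bp c)).2 = ob (Sg ex ey ξ) c := by
  rw [lp_snd, obv, o_bp]

lemma ub_lp (b : Fin T × Λ → ℝ) (c : Orb (Sg ex ey ξ)) :
    ub b (lp ex ey ξ (bp c)) = pr (Sg ex ey ξ) b c := by rw [ub, lp_bp_snd]; rfl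

lemma ub_nn {b : Fin T × Λ → ℝ} (h : ∀ v, 0 ≤ b v) (g : Lp T Λ) : 0 ≤ ub b g :=
  prod_nonneg fun v _ => h v

lemma ub_le_one {b : Fin T × Λ → ℝ} (h : ∀ v, 0 ≤ b v ∧ b v ≤ 1) (g : Lp T Λ) : ub b g ≤ 1 :=
  prod_le_one (fun v _ => (h v).1) fun v _ => (h v).2

/-- killing a point set. -/
def kill (b : Fin T × Λ → ℝ) (U : Finset (Fin T × Λ)) (v : Fin T × Λ) : ℝ := if v ∈ U then 0 else b v

/-- the polymer meets `U`. -/
def Hit (U : Finset (Fin T × Λ)) (g : Lp T Λ) : Prop := ∃ v ∈ g.2, v ∈ U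

instance (U : Finset (Fin T × Λ)) : DecidablePred (Hit U) := fun _ => by unfold Hit; infer_instance

lemma ub_kill (b : Fin T × Λ → ℝ) (U : Finset (Fin T × Λ)) : ub (kill b U) = off (Hit U) (ub b) := by
  funext g
  unfold off ub
  split_ifs with h
  · obtain ⟨v, h1, h2⟩ := h
    exact prod_eq_zero h1 (if_pos h2)
  · exact prod_congr rfl fun v hv => if_neg fun h' => h ⟨v, hv, h'⟩

/-! ### blocks -/

/-- the polymer lives on the slots `B`. -/
def In (B : Finset Λ) (g : Lp T Λ) : Prop := g.2.Nonempty ∧ ∀ v ∈ g.2, v.2 ∈ B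

instance (B : Finset Λ) : DecidablePred (In (T := T) B) := fun _ => by unfold In; infer_instance

variable (ex ey) in
/-- disjoint blocks that are not joined by a step. -/
def Apart {ι : Type} (B : ι → Finset Λ) : Prop :=
  (∀ i j x, x ∈ B i → x ∈ B j → i = j) ∧ ∀ i j s, ex s ∈ B i → ey s ∈ B j → i = j

variable {ι : Type} [Fintype ι] [DecidableEq ι] {B : ι → Finset Λ}

lemma Apart.uniq (hB : Apart ex ey B) (i j : ι) (g : Lp T Λ) (hi : In (B i) g) (hj : In (B j) g) :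
    i = j := by
  obtain ⟨v, hv⟩ := hi.1
  exact hB.1 i j _ (hi.2 v hv) (hj.2 v hv)

lemma Apart.tch_uniq (hB : Apart ex ey B) {i j : ι} {s : Fin T}
    (hi : tch ex ey (pts (A.filter (In (B i)))) s) (hj : tch ex ey (pts (A.filter (In (B j)))) s) :
    i = j := by
  obtain ⟨g, hg, hi⟩ := tch_pts.1 hi
  obtain ⟨g', hg', hj⟩ := tch_pts.1 hj
  have a := (mem_filter.1 hg).2.2
  have b := (mem_filter.1 hg').2.2
  rcases hi with hi | hi <;> rcases hj with hj | hj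
  exacts [hB.1 i j _ (a _ hi) (b _ hj), hB.2 i j s (a _ hi) (b _ hj),
    (hB.2 j i s (b _ hj) (a _ hi)).symm, hB.1 i j _ (a _ hi) (b _ hj)]

/-- **blocks are independent.** -/
theorem Apart.qq_prod (hB : Apart ex ey B) (hp : ∀ s, 0 ≤ p s ∧ p s ≤ 1) (A : Finset (Lp T Λ))
    (hA : ∀ g ∈ A, ∃ i, In (B i) g) : qq ex ey p A = ∏ i, qq ex ey p (A.filter (In (B i))) := by
  by_cases h : ∀ i, ∃ ξ, A.filter (In (B i)) ⊆ L ex ey ξ
  · choose ξ hξ using h
    have h0 : ∃ ξ0 : Fin T → Bool, ∀ i s, tch ex ey (pts (A.filter (In (B i)))) s →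
        ξ0 s = ξ i s := by
      refine ⟨fun s => if h : ∃ i, tch ex ey (pts (A.filter (In (B i)))) s then ξ h.choose s
        else false, fun i s hs => ?_⟩
      have h1 : ∃ i, tch ex ey (pts (A.filter (In (B i)))) s := ⟨i, hs⟩
      simp only [dif_pos h1]
      rw [hB.tch_uniq h1.choose_spec hs]
    obtain ⟨ξ0, h0⟩ := h0
    have h1 : ∀ i, A.filter (In (B i)) ⊆ L ex ey ξ0 := fun i => (sub_L_iff (hξ i)).2 (h0 i)
    have h2 : A ⊆ L ex ey ξ0 := fun g hg => (hA g hg).elim fun i hi => h1 i (mem_filter.2 ⟨hg, hi⟩)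
    rw [qq_eq h2, prod_congr rfl fun i _ => qq_eq (h1 i), prod_comm]
    refine prod_congr rfl fun s _ => ?_
    split_ifs with hs
    · obtain ⟨g, hg, hs⟩ := tch_pts.1 hs
      obtain ⟨i, hi⟩ := hA g hg
      have h3 : tch ex ey (pts (A.filter (In (B i)))) s := tch_pts.2 ⟨g, mem_filter.2 ⟨hg, hi⟩, hs⟩
      rw [prod_eq_single i (fun j _ hj => if_neg fun h' => hj (hB.tch_uniq h' h3)) (by simp),
        if_pos h3]
    · refine (prod_eq_one fun i _ => if_neg fun h' => hs ?_).symm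
      exact h'.imp (fun h => pts_mono (filter_subset _ _) h) fun h => pts_mono (filter_subset _ _) h
  · push Not at h
    obtain ⟨i, hi⟩ := h
    have h1 : qq ex ey p (A.filter (In (B i))) = 0 := by
      by_contra h'; obtain ⟨ξ, -, h2⟩ := qq_supp h'; exact hi ξ h2
    rw [prod_eq_zero (mem_univ i) h1]
    exact le_antisymm (h1 ▸ (cpt_qq hp).anti _ _ (filter_subset _ _)) ((cpt_qq hp).nn _)

end Crest.Agent.N337.Gas
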