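import Crest.Agent.N337.Op.CE

/-!
# Row 337: abstract polymer gases

A gas on `Finset Γ` has weight `q A * ∏ g ∈ A, u g`; `q A` is the probability that all polymers
of `A` are present.  Revealing the polymers with a property, labels, products, birth-death form.
-/

set_option autoImplicit false
set_option linter.unusedSectionVars false

namespace Crest.Agent.N337.Gas

open Finset Crest.Agent.N337.Op

variable {Γ : Type} [Fintype Γ] [DecidableEq Γ]

/-- compatibility weights. -/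
structure Cpt (q : Finset Γ → ℝ) : Prop where
  nn : ∀ A, 0 ≤ q A
  empty : q ∅ = 1
  anti : ∀ A B, A ⊆ B → q B ≤ q A

def gw (q : Finset Γ → ℝ) (u : Γ → ℝ) (A : Finset Γ) : ℝ := q A * ∏ g ∈ A, u g
def gZ (q : Finset Γ → ℝ) (u : Γ → ℝ) : ℝ := ∑ A, gw q u A
/-- the law of the gas. -/
noncomputable def nu (q : Finset Γ → ℝ) (u : Γ → ℝ) (A : Finset Γ) : ℝ := gw q u A / gZ q u
/-- compatibility weights given that `x` is present. -/
noncomputable def sh (q : Finset Γ → ℝ) (x A : Finset Γ) : ℝ := q (x ∪ A) / q x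
/-- the polymers with property `Q` are removed. -/
def off (Q : Γ → Prop) [DecidablePred Q] (u : Γ → ℝ) (g : Γ) : ℝ := if Q g then 0 else u g
/-- only the polymers with property `Q` are kept. -/
def on (Q : Γ → Prop) [DecidablePred Q] (u : Γ → ℝ) (g : Γ) : ℝ := if Q g then u g else 0
/-- birth-death form. -/
def Dir (ν F : Finset Γ → ℝ) : ℝ := ex ν fun A => ∑ g ∈ A, (F A - F (A.erase g)) ^ 2

variable {q q' : Finset Γ → ℝ} {u u' : Γ → ℝ} {Q : Γ → Prop} [DecidablePred Q] {x A : Finset Γ}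

lemma off_nn (hu : ∀ g, 0 ≤ u g) (g : Γ) : 0 ≤ off Q u g := by
  unfold off; split_ifs; exacts [le_rfl, hu g]

lemma on_nn (hu : ∀ g, 0 ≤ u g) (g : Γ) : 0 ≤ on Q u g := by
  unfold on; split_ifs; exacts [hu g, le_rfl]

lemma Cpt.ne_of_sub (hq : Cpt q) {B : Finset Γ} (h : A ⊆ B) (hB : q B ≠ 0) : q A ≠ 0 :=
  (((hq.nn B).lt_of_ne' hB).trans_le (hq.anti A B h)).ne'

lemma Cpt.le_one (hq : Cpt q) (A : Finset Γ) : q A ≤ 1 := hq.empty ▸ hq.anti ∅ A (empty_subset A)

lemma Cpt.sh (hq : Cpt q) (hx : q x ≠ 0) : Cpt (sh q x) where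
  nn A := div_nonneg (hq.nn _) (hq.nn _)
  empty := by rw [Gas.sh, union_empty, div_self hx]
  anti A B h := div_le_div_of_nonneg_right (hq.anti _ _ (union_subset_union_right h)) (hq.nn _)

lemma sh_empty (hq : Cpt q) : sh q ∅ = q := by
  funext A; rw [sh, empty_union, hq.empty, div_one]

lemma gw_nn (hq : Cpt q) (hu : ∀ g, 0 ≤ u g) (A : Finset Γ) : 0 ≤ gw q u A :=
  mul_nonneg (hq.nn A) (prod_nonneg fun g _ => hu g)

lemma gw_empty (hq : Cpt q) (u : Γ → ℝ) : gw q u ∅ = 1 := by simp [gw, hq.empty]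

lemma one_le_gZ (hq : Cpt q) (hu : ∀ g, 0 ≤ u g) : 1 ≤ gZ q u :=
  gw_empty hq u ▸ single_le_sum (fun A _ => gw_nn hq hu A) (mem_univ ∅)

lemma gZ_pos (hq : Cpt q) (hu : ∀ g, 0 ≤ u g) : 0 < gZ q u := one_pos.trans_le (one_le_gZ hq hu)

lemma nu_nn (hq : Cpt q) (hu : ∀ g, 0 ≤ u g) (A : Finset Γ) : 0 ≤ nu q u A :=
  div_nonneg (gw_nn hq hu A) (gZ_pos hq hu).le

lemma pr_nu (hq : Cpt q) (hu : ∀ g, 0 ≤ u g) : Pr (nu q u) where
  nn := nu_nn hq hu
  one := by simp only [nu, ← sum_div]; exact div_self (gZ_pos hq hu).ne'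

lemma ex_nu (q : Finset Γ → ℝ) (u : Γ → ℝ) (F : Finset Γ → ℝ) :
    ex (nu q u) F = (∑ A, gw q u A * F A) / gZ q u := by
  simp only [ex, nu, sum_div]; exact sum_congr rfl fun _ _ => by ring

lemma gw_supp (h : gw q u A ≠ 0) : q A ≠ 0 ∧ ∀ g ∈ A, u g ≠ 0 :=
  ⟨left_ne_zero_of_mul h, prod_ne_zero_iff.1 (right_ne_zero_of_mul h)⟩

lemma nu_supp (h : nu q u A ≠ 0) : q A ≠ 0 ∧ ∀ g ∈ A, u g ≠ 0 :=
  gw_supp fun h0 => h (by rw [nu, h0, zero_div])

lemma nu_congr' (h : ∀ A, gw q u A = gw q' u' A) : nu q u = nu q' u' := by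
  funext A; simp only [nu, gZ, h]

/-- the weights matter only on possible polymers. -/
lemma nu_congr (hq : Cpt q) (h : ∀ g, q {g} ≠ 0 → u g = u' g) : nu q u = nu q u' :=
  nu_congr' fun A => by
    by_cases h0 : q A = 0
    · simp [gw, h0]
    · rw [gw, gw, prod_congr rfl fun g hg => h g (hq.ne_of_sub (singleton_subset_iff.2 hg) h0)]

/-- the compatibility weights matter only on families of alive polymers. -/
lemma nu_congr_q (h : ∀ A, (∀ g ∈ A, u g ≠ 0) → q A = q' A) : nu q u = nu q' u :=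
  nu_congr' fun A => by
    by_cases h0 : ∏ g ∈ A, u g = 0
    · simp [gw, h0]
    · rw [gw, gw, h A (prod_ne_zero_iff.1 h0)]

lemma gw_off (A : Finset Γ) : gw q (off Q u) A = if A.filter Q = ∅ then gw q u A else 0 := by
  split_ifs with h
  · rw [gw, gw, prod_congr rfl fun g hg =>
      show off Q u g = u g from if_neg (filter_eq_empty_iff.1 h hg)]
  · obtain ⟨g, hg⟩ := nonempty_iff_ne_empty.2 h
    rw [mem_filter] at hg
    rw [gw, prod_eq_zero hg.1 (show off Q u g = 0 from if_pos hg.2), mul_zero]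

/-- revealing the polymers with property `Q`. -/
theorem sum_reveal (hx : q x ≠ 0) (hQ : ∀ g ∈ x, Q g) (F : Finset Γ → ℝ) :
    ∑ A, (if A.filter Q = x then gw q u A * F A else 0) =
      gw q u x * ∑ A, gw (sh q x) (off Q u) A * F (x ∪ A) := by
  simp only [gw_off, ite_mul, zero_mul, mul_sum, ← sum_filter]
  refine sum_bij' (fun A _ => A.filter fun g => ¬Q g) (fun A _ => x ∪ A) ?_ ?_ ?_ ?_ ?_
  · intro A _; simp
  · intro A hA
    simp only [mem_filter, mem_univ, true_and] at hA ⊢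
    rw [filter_union, hA, union_empty, filter_true_of_mem hQ]
  · intro A hA
    simp only [mem_filter, mem_univ, true_and] at hA
    rw [← hA, filter_union_filter_not_eq]
  · intro A hA
    simp only [mem_filter, mem_univ, true_and, filter_eq_empty_iff] at hA
    rw [filter_union, filter_false_of_mem fun g hg => not_not.2 (hQ g hg), empty_union,
      filter_true_of_mem fun g hg => hA hg]
  · intro A hA
    simp only [mem_filter, mem_univ, true_and] at hA
    have e : x ∪ A.filter (fun g => ¬Q g) = A := by rw [← hA, filter_union_filter_not_eq]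
    simp only [gw, sh, e]
    rw [← prod_filter_mul_prod_filter_not A Q, hA]
    field_simp

lemma mass_reveal (hx : q x ≠ 0) (hQ : ∀ g ∈ x, Q g) :
    mass (nu q u) (filter Q) x = gw q u x * gZ (sh q x) (off Q u) / gZ q u := by
  have := sum_reveal (u := u) hx hQ fun _ => 1
  simp only [mul_one] at this
  rw [gZ, ← this, mass, sum_div]
  exact sum_congr rfl fun A _ => by rw [nu]; split_ifs <;> simp

lemma mass_supp (hq : Cpt q) (h : mass (nu q u) (filter Q) x ≠ 0) :
    q x ≠ 0 ∧ (∀ g ∈ x, Q g) ∧ ∀ g ∈ x, u g ≠ 0 := by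
  obtain ⟨A, -, hA⟩ := exists_ne_zero_of_sum_ne_zero h
  have h1 : A.filter Q = x := by by_contra h'; exact hA (if_neg h')
  rw [if_pos h1] at hA
  subst h1
  exact ⟨hq.ne_of_sub (filter_subset _ _) (nu_supp hA).1, fun g hg => (mem_filter.1 hg).2,
    fun g hg => (nu_supp hA).2 g (mem_filter.1 hg).1⟩

/-- **the conditional law given the polymers with property `Q`.** -/
theorem ex_cond (hq : Cpt q) (hu : ∀ g, 0 ≤ u g) (h : mass (nu q u) (filter Q) x ≠ 0)
    (F : Finset Γ → ℝ) : ex (cond (nu q u) (filter Q) x) F =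
      ex (nu (sh q x) (off Q u)) fun A => F (x ∪ A) := by
  obtain ⟨h1, h2, -⟩ := mass_supp hq h
  refine mul_left_cancel₀ h ?_
  have z1 := (gZ_pos (hq.sh h1) (off_nn (Q := Q) hu)).ne'
  have z2 := (gZ_pos hq hu).ne'
  rw [mass_mul_ex_cond h, mass_reveal h1 h2, ex_nu]
  have : ∑ A, (if A.filter Q = x then nu q u A * F A else 0) =
      (∑ A, if A.filter Q = x then gw q u A * F A else 0) / gZ q u := by
    rw [sum_div]; exact sum_congr rfl fun A _ => by rw [nu]; split_ifs <;> [ring; simp]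
  rw [this, sum_reveal h1 h2]
  field_simp

lemma var_cond (hq : Cpt q) (hu : ∀ g, 0 ≤ u g) (h : mass (nu q u) (filter Q) x ≠ 0)
    (F : Finset Γ → ℝ) : var (cond (nu q u) (filter Q) x) F =
      var (nu (sh q x) (off Q u)) fun A => F (x ∪ A) := by
  simp only [var, nsq_eq_ex, ex_cond hq hu h]

/-- tower property. -/
theorem ex_reveal (hq : Cpt q) (hu : ∀ g, 0 ≤ u g) (Q : Γ → Prop) [DecidablePred Q]
    (F : Finset Γ → ℝ) : ex (nu q u) F = ex (nu q u) fun A =>
      ex (nu (sh q (A.filter Q)) (off Q u)) fun A' => F (A.filter Q ∪ A') := by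
  rw [← (proj_ce (nu_nn hq hu) (filter Q)).ker.ex_ap F]
  exact ex_congr fun A h => by
    rw [ap_ce_ae (nu_nn hq hu) _ h, ex_cond hq hu (mass_ne (nu_nn hq hu) h)]

/-- the residual of `E[·| polymers with Q]`. -/
theorem res_reveal (hq : Cpt q) (hu : ∀ g, 0 ≤ u g) (Q : Γ → Prop) [DecidablePred Q]
    (F : Finset Γ → ℝ) : nsq (nu q u) (fun A => F A - ap (ce (nu q u) (filter Q)) F A) =
      ex (nu q u) fun A => var (nu (sh q (A.filter Q)) (off Q u)) fun A' => F (A.filter Q ∪ A') := by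
  rw [res_ce (nu_nn hq hu)]
  exact ex_congr fun A h => var_cond hq hu (mass_ne (nu_nn hq hu) h) F

/-- killing is conditioning. -/
theorem nu_off (hq : Cpt q) (hu : ∀ g, 0 ≤ u g) (Q : Γ → Prop) [DecidablePred Q] :
    nu q (off Q u) = fun A => ind (fun A => A.filter Q = ∅) A * nu q u A /
      ex (nu q u) (ind fun A => A.filter Q = ∅) := by
  funext A
  have z2 := (gZ_pos hq hu).ne'
  have e : ∑ A, gw q u A * ind (fun A => A.filter Q = ∅) A = gZ q (off Q u) :=
    sum_congr rfl fun A _ => by rw [gw_off, ind]; split_ifs <;> simp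
  rw [ex_nu, e, nu, nu, gw_off, ind]
  split_ifs
  · field_simp
  · simp

/-! ### births and deaths -/

/-- Georgii-Nguyen-Zessin. -/
theorem gnz (w : Finset Γ → ℝ) (f : Finset Γ → Γ → ℝ) :
    ∑ A, w A * ∑ g ∈ A, f (A.erase g) g = ∑ A, ∑ g ∈ Aᶜ, w (insert g A) * f A g := by
  simp only [mul_sum]
  rw [sum_sigma', sum_sigma']
  refine sum_bij' (fun x _ => ⟨x.1.erase x.2, x.2⟩) (fun x _ => ⟨insert x.2 x.1, x.2⟩)
    ?_ ?_ ?_ ?_ ?_
  · simp
  · simp
  · rintro ⟨A, g⟩ h
    simp only [mem_sigma] at h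
    simp [insert_erase h.2]
  · rintro ⟨A, g⟩ h
    simp only [mem_sigma, mem_compl] at h
    simp [erase_insert h.2]
  · rintro ⟨A, g⟩ h
    simp only [mem_sigma] at h
    simp [insert_erase h.2]

lemma gw_insert {g : Γ} (hg : g ∉ A) (hA : q A ≠ 0) :
    gw q u (insert g A) = gw q u A * (sh q A {g} * u g) := by
  rw [gw, gw, sh, prod_insert hg, union_comm, ← insert_eq]; field_simp

lemma Dir_nn {ν : Finset Γ → ℝ} (h : ∀ A, 0 ≤ ν A) (F : Finset Γ → ℝ) : 0 ≤ Dir ν F :=
  ex_nn h fun _ => sum_nonneg fun _ _ => sq_nonneg _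

/-- the birth-death forms of the children. -/
theorem Dir_reveal (hq : Cpt q) (hu : ∀ g, 0 ≤ u g) (Q : Γ → Prop) [DecidablePred Q]
    (F : Finset Γ → ℝ) : (ex (nu q u) fun A =>
      Dir (nu (sh q (A.filter Q)) (off Q u)) fun A' => F (A.filter Q ∪ A')) =
      ex (nu q u) fun A => ∑ g ∈ A.filter (fun g => ¬Q g), (F A - F (A.erase g)) ^ 2 := by
  rw [ex_reveal hq hu Q fun A => ∑ g ∈ A.filter (fun g => ¬Q g), (F A - F (A.erase g)) ^ 2]
  refine ex_congr fun A _ => ex_congr fun A' h => ?_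
  have h1 : ∀ g ∈ A', ¬Q g := fun g hg hQ => (nu_supp h).2 g hg (if_pos hQ)
  rw [filter_union, filter_true_of_mem h1,
    filter_false_of_mem fun g hg => not_not.2 (mem_filter.1 hg).2, empty_union]
  refine sum_congr rfl fun g hg => ?_
  rw [erase_union_distrib, erase_eq_of_notMem fun h' => h1 g hg (mem_filter.1 h').2]

lemma Dir_reveal_le (hq : Cpt q) (hu : ∀ g, 0 ≤ u g) (Q : Γ → Prop) [DecidablePred Q]
    (F : Finset Γ → ℝ) : (ex (nu q u) fun A =>
      Dir (nu (sh q (A.filter Q)) (off Q u)) fun A' => F (A.filter Q ∪ A')) ≤ Dir (nu q u) F := by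
  rw [Dir_reveal hq hu]
  exact ex_mono (nu_nn hq hu) fun A =>
    sum_le_sum_of_subset_of_nonneg (filter_subset _ _) fun _ _ _ => sq_nonneg _

/-! ### products -/

section Prod
variable {ι : Type} [Fintype ι] [DecidableEq ι] {B : ι → Γ → Prop} [∀ i, DecidablePred (B i)]

/-- union of a family. -/
def un (ω : ι → Finset Γ) : Finset Γ := univ.biUnion ω

lemma filter_un (hB : ∀ i j g, B i g → B j g → i = j) {ω : ι → Finset Γ}
    (h : ∀ i, ∀ g ∈ ω i, B i g) (i : ι) : (un ω).filter (B i) = ω i := by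
  ext g
  simp only [un, mem_filter, mem_biUnion, mem_univ, true_and]
  exact ⟨fun ⟨⟨j, hj⟩, hi⟩ => hB i j g hi (h j g hj) ▸ hj, fun hg => ⟨⟨i, hg⟩, h i g hg⟩⟩

lemma un_filter {A : Finset Γ} (h : ∀ g ∈ A, ∃ i, B i g) : un (fun i => A.filter (B i)) = A := by
  ext g
  simp only [un, mem_filter, mem_biUnion, mem_univ, true_and]
  exact ⟨fun ⟨_, hj, _⟩ => hj, fun hg => (h g hg).imp fun _ hi => ⟨hg, hi⟩⟩

lemma sum_prod_gw (hB : ∀ i j g, B i g → B j g → i = j) (hs : ∀ g, u g ≠ 0 → ∃ i, B i g)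
    (hp : ∀ A, (∀ g ∈ A, ∃ i, B i g) → q A = ∏ i, q (A.filter (B i))) (F : Finset Γ → ℝ) :
    ∑ A, gw q u A * F A = ∑ ω : ι → Finset Γ, (∏ i, gw q (on (B i) u) (ω i)) * F (un ω) := by
  symm
  refine sum_bij_ne_zero (fun ω _ _ => un ω) (fun _ _ _ => mem_univ _) ?_ ?_ ?_
  · intro ω _ h ω' _ h' e
    have k : ∀ ω : ι → Finset Γ, (∏ i, gw q (on (B i) u) (ω i)) * F (un ω) ≠ 0 →
        ∀ i, ∀ g ∈ ω i, B i g := fun ω h i g hg => by
      by_contra hn
      exact (gw_supp (prod_ne_zero_iff.1 (left_ne_zero_of_mul h) i (mem_univ i))).2 g hg (if_neg hn)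
    funext i
    rw [← filter_un hB (k ω h) i, ← filter_un hB (k ω' h') i, e]
  all_goals
    have key : ∀ A, (∀ g ∈ A, ∃ i, B i g) →
        ∏ i, gw q (on (B i) u) (A.filter (B i)) = gw q u A := fun A hA => by
      simp only [gw, prod_mul_distrib, ← hp A hA]
      congr 1
      conv_rhs => rw [← un_filter hA, un]
      rw [prod_biUnion fun i _ j _ hij => disjoint_left.2 fun g hi hj =>
        hij (hB i j g (mem_filter.1 hi).2 (mem_filter.1 hj).2)]
      exact prod_congr rfl fun i _ => prod_congr rfl fun g hg => if_pos (mem_filter.1 hg).2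
  · intro A _ h
    have hA : ∀ g ∈ A, ∃ i, B i g := fun g hg => hs g ((gw_supp (left_ne_zero_of_mul h)).2 g hg)
    refine ⟨fun i => A.filter (B i), mem_univ _, ?_, un_filter hA⟩
    rwa [key A hA, un_filter hA]
  · intro ω _ h
    have k : ∀ i, ∀ g ∈ ω i, B i g := fun i g hg => by
      by_contra hn
      exact (gw_supp (prod_ne_zero_iff.1 (left_ne_zero_of_mul h) i (mem_univ i))).2 g hg (if_neg hn)
    rw [← key (un ω) fun g hg => ?_]
    · simp only [filter_un hB k]
    · simp only [un, mem_biUnion] at hg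
      exact hg.imp fun i hi => k i g hi.2

/-- **non interacting blocks**: the gas is a product. -/
theorem ex_prod (hB : ∀ i j g, B i g → B j g → i = j) (hs : ∀ g, u g ≠ 0 → ∃ i, B i g)
    (hp : ∀ A, (∀ g ∈ A, ∃ i, B i g) → q A = ∏ i, q (A.filter (B i))) (F : Finset Γ → ℝ) :
    ex (nu q u) F = ex (pm fun i => nu q (on (B i) u)) fun ω => F (un ω) := by
  have hZ : gZ q u = ∏ i, gZ q (on (B i) u) := by
    have := sum_prod_gw hB hs hp fun _ => 1
    simp only [mul_one] at this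
    rw [gZ, this]
    exact sum_pi (E := fun _ : ι => Finset Γ) fun i A => gw q (on (B i) u) A
  rw [ex_nu, sum_prod_gw hB hs hp, hZ, ex, sum_div]
  exact sum_congr rfl fun ω _ => by simp only [pm, nu, prod_div_distrib]; ring

lemma var_prod (hB : ∀ i j g, B i g → B j g → i = j) (hs : ∀ g, u g ≠ 0 → ∃ i, B i g)
    (hp : ∀ A, (∀ g ∈ A, ∃ i, B i g) → q A = ∏ i, q (A.filter (B i))) (F : Finset Γ → ℝ) :
    var (nu q u) F = var (pm fun i => nu q (on (B i) u)) fun ω => F (un ω) := by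
  simp only [var, nsq_eq_ex, ex_prod hB hs hp]

/-- the union of all blocks but one. -/
def unx (ω : ι → Finset Γ) (i : ι) : Finset Γ := (univ.erase i).biUnion ω

lemma un_update (ω : ι → Finset Γ) (i : ι) (A : Finset Γ) :
    un (Function.update ω i A) = unx ω i ∪ A := by
  ext g
  simp only [un, unx, mem_biUnion, mem_univ, true_and, mem_union, mem_erase, and_true]
  constructor
  · rintro ⟨j, hj⟩
    by_cases h : j = i
    · subst h; right; simpa using hj
    · left; exact ⟨j, h, by simpa [h] using hj⟩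
  · rintro (⟨j, h, hj⟩ | h)
    · exact ⟨j, by simpa [h] using hj⟩
    · exact ⟨i, by simpa using h⟩

/-- the birth-death form of a product of gases living on disjoint blocks. -/
theorem Dir_pm {ν : ι → Finset Γ → ℝ} (hν : ∀ i, Pr (ν i)) (hB : ∀ i j g, B i g → B j g → i = j)
    (hs : ∀ i A, ν i A ≠ 0 → ∀ g ∈ A, B i g) (F : Finset Γ → ℝ) :
    ∑ i, ex (pm ν) (fun ω => Dir (ν i) fun A => F (un (Function.update ω i A))) =
      ex (pm ν) fun ω => ∑ g ∈ un ω, (F (un ω) - F ((un ω).erase g)) ^ 2 := by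
  have e : ∀ i, ex (pm ν) (fun ω => Dir (ν i) fun A => F (un (Function.update ω i A))) =
      ex (pm ν) fun ω => ∑ g ∈ ω i,
        (F (un ω) - F (un (Function.update ω i ((ω i).erase g)))) ^ 2 := fun i => by
    rw [ex_pm_sec (E := fun _ : ι => Finset Γ) hν i fun ω => ∑ g ∈ ω i,
      (F (un ω) - F (un (Function.update ω i ((ω i).erase g)))) ^ 2]
    simp only [Function.update_self, Function.update_idem, Dir]
  simp only [e]
  rw [show ∀ G : ι → (ι → Finset Γ) → ℝ, ∑ i, ex (pm ν) (G i) = ex (pm ν) fun ω => ∑ i, G i ω from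
    fun G => by simp only [ex, mul_sum]; exact sum_comm]
  refine ex_congr fun ω h => ?_
  have k : ∀ i, ∀ g ∈ ω i, B i g := fun i => hs i _ (prod_ne_zero_iff.1 h i (mem_univ i))
  conv_rhs => rw [un, sum_biUnion fun i _ j _ hij => disjoint_left.2 fun g hi hj =>
    hij (hB i j g (k i g hi) (k j g hj))]
  refine sum_congr rfl fun i _ => sum_congr rfl fun g hg => ?_
  congr 3
  conv_rhs => rw [← un, ← Function.update_eq_self i ω, un_update, erase_union_distrib]
  rw [un_update, erase_eq_of_notMem (s := unx ω i)]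
  simp only [unx, mem_biUnion, mem_erase, not_exists, not_and, and_imp]
  exact fun j hj _ h' => hj (hB j i g (k j g h') (k i g hg))

end Prod

end Crest.Agent.N337.Gas
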